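import Crest.Agent.X212.Kl48.Reg
import Crest.Agent.X212.Rf65.Pl
import Crest.Agent.X212.An.Loc
import Crest.Agent.X212.Ins26.D0

/-!
# Row 212, KILL-LENS (helper48): small facts on objects, uniform constants
-/

set_option autoImplicit false
set_option linter.unusedSectionVars false
noncomputable section
open scoped Manifold ContDiff Topology
open MeasureTheory Set Function Filter

namespace Crest.Agent.X212.Kl48
open An M Nd18 Rdc90 Rf65 Cyl58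
open An.Job (Sol SolOn)

section wall
variable {κ lam : Type} [Fintype κ] [Fintype lam] {Y : Mf 3} [CompactSpace Y.M]
  {D : YD Y.I Y.M κ lam} {β β' : YC Y.M κ lam}

theorem eqv_refl (h : Bs D β) : D.Eqv β β :=
  ⟨_, _, Eqv71.ceq_refl h.ok.B h.ok.G ⟨h.adm.adm.ok, h.adm.adm.conn, h.adm.adm.sm, h.adm.adm.pos⟩
    isOpen_univ⟩

theorem brk0 {N : ND Y.M lam} {q ζ ζ' k j} (h : N.Brk D q β ζ β' ζ' k j) (e : j = 0) :
    β = β' ∧ k = 0 := by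
  cases h
  · exact ⟨rfl, rfl⟩
  all_goals simp at e

end wall

section job
variable {Wi : Type} {X : Mf 4} {A κ lam : Type} [Fintype A] [Fintype κ] [Fintype lam]
  [DecidableEq lam] {M : Mark X A κ} {W : World M} {N : ML M lam} {Λ : Lns W N}
  {A' h : Type} [Fintype A'] [DecidableEq A'] [Fintype h] {r n : ℕ}
  {J : Job Wi Λ A' h r n} {c : M.Cl} {δ ε ε' : ℝ} {y : J.Obc c} {P P' : Set (Reg A)} {π : Reg A}
  {σ : Cel A'} {q : Wi →₀ ℝ} {sh : Set A'}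

theorem go_mono (h : Go δ y P) (k : P' ⊆ P) : Go δ y P' :=
  have e : EdP c P' ⊆ EdP c P := fun _ ⟨π, a, b⟩ => ⟨π, k a, b⟩
  ⟨h.br, h.O, h.adm, fun i hi => h.bs i (e hi), fun i hi => h.lim i (e hi),
    h.int.mono_set (biUnion_subset_biUnion_left k)⟩

theorem ea_mono (h : EA ε y π) (h0 : 0 ≤ ε) (k : ε ≤ ε') : EA ε' y π :=
  ⟨h.int, h.le.trans (mul_le_mul_of_nonneg_right (pow_le_pow_left₀ h0 k 2)
    (integral_nonneg fun _ => sq_nonneg _))⟩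

theorem ea_flat (hπ : M.sys.Piece c.1 π) (h : Fl y π) : EA ε y π :=
  ⟨integrableOn_zero.congr_fun (fun z k => by simp [h z k]) (isOpen_pc W.toCaps hπ).measurableSet, by
    rw [setIntegral_eq_zero_of_forall_eq_zero fun z k => by simp [h z k]]
    exact mul_nonneg (sq_nonneg _) (integral_nonneg fun _ => sq_nonneg _)⟩

theorem kap_sum (h : Integrable y.kd (J.G c y.s).F.μ) :
    y.x.kap (J.B c) (J.G c y.s) = ∑ᶠ ρ ∈ Pc c, y.kap (W.pc c ρ) := by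
  rw [← (toFinite (Pc c)).coe_toFinset, finsum_mem_coe_finset]
  have m : ∀ {ρ}, ρ ∈ (toFinite (Pc c)).toFinset → M.sys.Piece c.1 ρ := (Finite.mem_toFinset _).1
  refine .trans ?_ (integral_biUnion_finset _ (fun ρ k => (isOpen_pc W.toCaps (m k)).measurableSet)
    (fun ρ k ρ' k' e => disjoint_left.2 fun z i i' => e (pc_unique W.toCaps (m k) (m k') i i'))
    fun _ _ => h.integrableOn)
  rw [eq_univ_of_forall (s := ⋃ ρ ∈ (toFinite (Pc c)).toFinset, W.pc c ρ) fun z =>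
    let ⟨ρ, k, i⟩ := exists_pc W.toCaps z; mem_biUnion ((Finite.mem_toFinset _).2 k) i,
    Measure.restrict_univ]
  rfl

theorem ia_noz : ia δ y.noz π = ia δ y π :=
  congrArg Classical.epsilon (funext fun _ => propext
    ⟨fun ⟨b, k⟩ => ⟨⟨b.s, b.br, b.O⟩, k⟩, fun ⟨b, k⟩ => ⟨⟨b.s, b.br, b.O⟩, k⟩⟩)

theorem solOn (h : Sol σ q y) {H : Set _} (hH : H ⊆ y.H) (k : ∀ ρ ∈ Pc c, ρ ∉ P → ¬y.TF ρ) :
    SolOn (J.prt sh σ c P P H) σ q y :=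
  ⟨h.cell, h.inf, h.sol.toAdm, fun x hx => by
      obtain ⟨ρ, h1, h2⟩ := exists_pc W.toCaps x
      exact Job.Obc.zero (k ρ h1 fun i => hx (mem_un.2 ⟨ρ, i, h2⟩)) h2,
    fun x _ => h.sol.D x, fun x _ => h.sol.C x, h.sol.S, fun i hi => h.cut i (hH hi.1),
    fun a b ha _ => h.lim a b ha, fun a ha b _ => h.crit a ha b, h.int.integrableOn⟩

theorem card_UU {Z : Set (Ed c)} (hZ : ∀ i, i ∈ Z) (j0 : Set A) : Fintype.card (UU P Z j0) = 0 :=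
  Fintype.card_eq_zero_iff.2 ⟨fun ⟨_, i, _, k, _⟩ => k (hZ i)⟩

theorem mu_none {Z : Set (Ed c)} (hZ : ∀ i, i ∈ Z) (j0 : Set A) (i : Ed c) : mu P Z j0 i = none :=
  dif_neg fun k => k.2 (hZ i)

theorem stb_eq (T : Finset (A × Bool))
    (hT : ∀ a b, (a, b) ∈ T ↔ a ∈ cylW c ∧ ∃ π ∈ P, π a = some b) :
    stb y P = ∑ p ∈ T, dz (J.xs p.1).D (y.β p.1 p.2) := by
  rw [← finsum_mem_coe_finset]
  exact finsum_mem_eq_of_bijOn (fun i : Ed c => (i.1.1, i.2)) ⟨fun i k => (hT _ _).2 ⟨i.1.2, k⟩,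
    fun i _ i' _ e => Prod.ext (Subtype.ext (Prod.ext_iff.1 e).1) (Prod.ext_iff.1 e).2,
    fun p k => ⟨(⟨p.1, ((hT _ _).1 k).1⟩, p.2), ((hT _ _).1 k).2, rfl⟩⟩ fun _ _ => rfl

end job

/-! ### uniform constants -/

open G75 Sid48
variable {κ lam : Type} [Fintype κ] [Fintype lam] [DecidableEq lam] {Lm : LM κ lam} (S : Scene Lm)
  (i : S.L) (σ c₀ : Finset S.A) (π₀ : Reg S.A)

/-- the body of `AbwStmt` -/
def AbwAt (P : ℝ → Prop) (ε T : ℝ) : Prop :=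
  ∀ (D : S.Dat) Wi r n (J : Job Wi (D.Λ i) (S.A ⊕ Unit) S.ls r n)
    (c : S.M.Cl) δ s (y : Reg S.A → J.Obc c) (γ : ∀ a, YC (J.xs a).Y.M κ (lam ⊕ lam)), J.OK → 0 < δ →
    (∀ a, a ∈ c₀ ↔ a ∈ c.1 ∧ (S.M.pin a ∨ a ∈ S.fz)) → S.Pt σ T (J.Θ s).2 →
    Sys.inf (J.Θ s).2 = c.1 → cylW c ⊆ J.m.1 → S.M.sys.Piece ↑c₀ π₀ →
    (∀ ρ, S.In c π₀ ρ → (y ρ).s = s ∧ Go δ (y ρ) {ρ} ∧ (y ρ).TA ρ ∧ EA ε (y ρ) ρ ∧
      (∀ a ∈ cylW c, ∀ b, ρ a = some b → a ∈ S.M.sys.inn π₀ →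
        Bs (J.xs a).D (γ a) ∧ (J.xs a).D.Eqv (γ a) ((y ρ).β a b)) ∧
      ∀ a ∈ c.1, a ∈ S.M.sys.inn π₀ → S.M.sys.U ρ ⊆ (S.M.sys.w a).sd false → Un (y ρ) ρ) →
    P (∑ᶠ ρ ∈ {ρ | S.In c π₀ ρ}, (y ρ).kap (D.W.pc c ρ))

/-- the numbers of a region and the bound for its weight -/
structure RB (K₀ ε T w β sg l2 : ℝ) : Prop where
  nb : S.Nb i (S.M.sys.U π₀) β sg l2
  ir : ∀ k, Lv sg l2 k → -1 ≤ Dl β (S.nm σ π₀) (S.nh π₀) k → w ≤ Wt β sg l2 (S.nm σ π₀) (S.nh π₀) k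
  hi : w ≤ Wt β sg l2 (S.nm σ π₀) (S.nh π₀) K₀
  ab : AbwAt S i σ c₀ π₀ (fun k => Lv sg l2 k → w ≤ Wt β sg l2 (S.nm σ π₀) (S.nh π₀) k) ε T

/-- the numerical hypothesis with the constants -/
def UN (K₀ ε T : ℝ) : Prop := ∀ i σ c₀, NumAt S i σ c₀ → ∃ w β sg l2 : Reg S.A → ℝ,
  (∀ π, S.M.sys.Piece ↑c₀ π → RB S i σ c₀ π K₀ ε T (w π) (β π) (sg π) (l2 π)) ∧
    ∀ F : Finset (Reg S.A), (∀ π ∈ F, S.M.sys.Piece ↑c₀ π) → c₀.Nonempty ∨ F.Nonempty →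
      1 < ∑ π ∈ F, w π + 4 * ((c₀.card : ℝ) - F.card) - 2 * S.nd c₀

theorem exists_un (hA : AbwStmt Lm) : ∃ K₀ : ℝ, ∃ ε > 0, ∀ᶠ T in 𝓝[<] (1 : ℝ), UN S K₀ ε T := by
  choose! w h1 h2 using fun (x : S.L × Finset S.A × Finset S.A) (h : NumAt S x.1 x.2.1 x.2.2) => h
  choose! β sg l2 k1 k2 k3 using fun x h π hπ => (h1 x h π hπ : ∃ β sg l2, _)
  have key : ∀ x : (S.L × Finset S.A × Finset S.A) × Reg S.A, ∀ᶠ K in atTop, ∀ᶠ ε in 𝓝[>] (0 : ℝ),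
      ∀ᶠ T in 𝓝[<] (1 : ℝ), NumAt S x.1.1 x.1.2.1 x.1.2.2 → S.M.sys.Piece ↑x.1.2.2 x.2 →
        RB S x.1.1 x.1.2.1 x.1.2.2 x.2 K ε T (w x.1 x.2) (β x.1 x.2) (sg x.1 x.2) (l2 x.1 x.2) := by
    rintro ⟨x, π⟩
    by_cases h : NumAt S x.1 x.2.1 x.2.2 ∧ S.M.sys.Piece ↑x.2.2 π
    swap
    · exact .of_forall fun _ => .of_forall fun _ => .of_forall fun _ a b => (h ⟨a, b⟩).elim
    obtain ⟨ε₀, e0, e1⟩ := hA S _ _ _ _ _ (k3 x h.1 π h.2)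
    refine (eventually_ge_atTop ((w x π - Wt (β x π) (sg x π) (l2 x π) (S.nm x.2.1 π) (S.nh π) 0) / 6)).mono
      fun K hK => mem_of_superset (Ioo_mem_nhdsGT e0) fun ε hε => e1.mono fun T hT _ _ =>
        ⟨k1 x h.1 π h.2, k2 x h.1 π h.2, by simp only [Wt] at hK ⊢; linarith,
          fun D Wi r n J c δ s y γ a1 a2 a3 a4 a5 a6 a7 a8 => hT D Wi r n J c δ s y γ a1 a2 a3 a4 a5 a6 a7
            fun ρ k => let ⟨b1, b2, b3, b4, b5⟩ := a8 ρ k; ⟨b1, b2, b3, ea_mono b4 hε.1.le hε.2.le, b5⟩⟩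
  obtain ⟨K, hK⟩ := (eventually_all.2 key).exists
  obtain ⟨ε, hε, e0⟩ := ((eventually_all.2 hK).and self_mem_nhdsWithin).exists
  exact ⟨K, ε, e0, (eventually_all.2 hε).mono fun T hT i σ c₀ h =>
    ⟨_, _, _, _, fun π => hT ((i, σ, c₀), π) h, h2 (i, σ, c₀) h⟩⟩

end Crest.Agent.X212.Kl48
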