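import Crest.Agent.X212.Rf65.Rk
import Crest.Agent.X212.Rf65.Rc
import Crest.Agent.X212.Rf65.Rf
import Crest.Agent.X212.Rf65.Qi
import Crest.Agent.X212.Rr71.Main
import Crest.Agent.X212.Sw21.KrA
import Crest.Agent.X212.Sw21.KrB
import Crest.Agent.X212.Sw21.Kr
import Crest.Agent.X212.Kl48.Rg2
import Crest.Agent.X212.Kl48.Kc
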