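import Crest.Agent.X212.Kl48.Job
import Crest.Agent.X212.Ins26.Main

/-!
# Row 212, KILL-LENS (helper48): the numbers of a region
-/

set_option autoImplicit false
set_option linter.unusedSectionVars false
noncomputable section
open scoped Manifold ContDiff Topology
open MeasureTheory Set Function Filter Classical

namespace Crest.Agent.X212.Kl48
open An M Nd18 Rdc90 Rf65 Cyl58 G75 Ins26 Sid48
open An.Job (Sol SolOn)

variable {κ lam : Type} [Fintype κ] [Fintype lam] [DecidableEq lam] {Lm : LM κ lam} {S : Scene Lm}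

instance : ConnectedSpace S.X.M := S.M.con

/-- the broken pinch walls -/
def c0 (c : S.M.Cl) : Finset S.A := Finset.univ.filter fun a => a ∈ c.1 ∧ S.M.pin a

/-- the broken cylindrical walls -/
def LL (c : S.M.Cl) : Finset S.A := Finset.univ.filter (· ∈ cylW c)

/-- the outer piece -/
abbrev oc (c : S.M.Cl) (π : Reg S.A) : Reg S.A := ou S.M.sys (LL c) π

/-- the broken cylindrical walls of a region -/
abbrev fl (c : S.M.Cl) (π : Reg S.A) : Finset S.A := fi S.M.sys (LL c) π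

variable {c : S.M.Cl} {a l : S.A}

theorem mem_c0 : a ∈ c0 c ↔ a ∈ c.1 ∧ S.M.pin a := by simp [c0]

theorem mem_LL : a ∈ LL c ↔ a ∈ cylW c := by simp [LL]

theorem nb_int {i : S.L} {U : Set S.X.M} {β sg l2 : ℝ} (h : S.Nb i U β sg l2) : ∃ m : ℤ, β = m :=
  let ⟨_, _, _, _, _, _, e, _⟩ := h
  ⟨1 - _ + _, e.trans (by push_cast; rfl)⟩

variable {D : S.Dat} {i : S.L} {Wi : Type} {r n : ℕ} {J : Job Wi (D.Λ i) (S.A ⊕ Unit) S.ls r n}

/-- `1` if the cut of `l` is dropped -/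
def ch (y : J.Obc c) (l : S.A) : ℝ := if l ∈ Subtype.val '' y.H then 0 else 1

theorem ch_nonneg (y : J.Obc c) (l : S.A) : 0 ≤ ch y l := by unfold ch; split_ifs <;> norm_num

theorem ch_int (y : J.Obc c) (T : Finset S.A) : ∃ m : ℕ, ∑ l ∈ T, ch y l = m :=
  ⟨_, by simp only [ch, ← ite_not (_ ∈ _)]; exact Finset.sum_boole _ _⟩

/-- the stabiliser at the wall -/
abbrev dw (y : J.Obc c) (l : S.A) : ℕ := dz (J.xs l).D (y.β l true)

/-- the level of the region with the fillers `z` -/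
def kk (y : J.Obc c) (z : S.A → J.Obc c) (π : Reg S.A) : ℝ :=
  y.kap (D.W.pc c (oc c π)) + ∑ l ∈ fl c π, (z l).kap (D.W.pc c (hp l false))

/-- the level of the region with the chains and the dropped cuts -/
def Tt (y : J.Obc c) (π : Reg S.A) : ℝ := y.kap (D.W.pc c (oc c π)) +
  ∑ l ∈ fl c π, (y.kap (D.W.pc c (hp l false)) + y.k l) + ∑ l ∈ fi S.M.sys S.ls π, ch y l

/-- the loss at a lens wall -/
def gg (δ : ℝ) (y z : J.Obc c) (e : ℕ) (l : S.A) : ℝ :=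
  ia δ z (hp l false) + idr δ z (hp l false) + 6 * (e + ch y l) - 2

/-- the filler at a lens wall -/
structure Fi (δ : ℝ) (y z : J.Obc c) (e : ℕ) (l : S.A) : Prop where
  fil : Fil δ 0 y z l (hp l false)
  kap : y.kap (D.W.pc c (hp l false)) + y.k l = z.kap (D.W.pc c (hp l false)) + e
  a : 1 ≤ (ia δ z (hp l false) : ℝ) + 8 * (e + ch y l)
  g : 0 ≤ gg δ y z e l
  eq : gg δ y z e l = 0 → e + ch y l = 0 ∧ y.j l = 0 ∧ dw y l = 1 ∧ idr δ z (hp l false) = 0 ∧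
    z.kap (D.W.pc c (hp l false)) = 1 / 4

variable {X : Finset S.A} {a₀ : Option S.A} {j : ℕ} {n₀ : ℤ} {T δ : ℝ} {Adm : (Wi →₀ ℝ) → Prop}
  {τ σ : Finset S.A} {o : Option Bool} {q : Wi →₀ ℝ} {y : J.Obc c} {π ρ : Reg S.A}
  {z : S.A → J.Obc c} {e : S.A → ℕ} {β sg l2 : ℝ} {F : Finset (Reg S.A)} {P P' : Set (Reg S.A)}

variable (J X a₀ j n₀ T c δ Adm τ σ o) in
/-- the standing hypotheses -/
structure Cx : Prop where
  gx : GX J X a₀ j n₀ T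
  a0 : ∀ a ∈ a₀, a ∉ c.1
  cyl : cylW c ⊆ S.ls
  an : AnH J c δ (shX S X) (cel τ o)
  add : AddAt J c δ
  lix : LixAt J c δ Adm
  sub : τ ⊆ σ
  mem : σ ∈ S.K i
  hd : ↑τ ⊆ hard S X
  num : n₀ + σ.card + sf o ≤ 1

namespace Cx
variable (H : Cx c J X a₀ j n₀ T δ Adm τ σ o)
include H

theorem ls (hl : l ∈ LL c) : l ∈ S.ls := H.cyl (mem_LL.1 hl)

theorem lf : Lf S.M.sys c.1 (c0 c) (LL c) :=
  ⟨c.2, fun a => by rw [mem_c0, mem_LL]; exact ⟨fun k => (Classical.em _).imp (⟨k, ·⟩) (⟨k, ·⟩),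
      fun k => k.elim And.left And.left⟩, fun _ h k => (mem_LL.1 k).2 (mem_c0.1 h).2,
    fun l hl a ha e => H.gx.sc.lsi l (H.ls hl) a e (c.2 ha (mem_LL.1 hl).1 e)⟩

theorem nfz (ha : a ∈ c.1) : a ∉ S.fz := fun k => ((H.lf.mem a).1 ha).elim
  (fun i => (H.gx.sc.fz a k).1 (mem_c0.1 i).2) fun i => (H.gx.sc.fz a k).2.1 (H.ls i)

theorem cmp_ls (ha : a ∈ S.ls) (hl : l ∈ S.ls) (e : a ≠ l) : S.M.sys.Cmp a l :=
  (H.gx.sc.lsd a ha l hl e).mono subset_union_right subset_union_right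

theorem out_ls (ha : a ∈ S.ls) (h : a ∉ LL c) :
    ∀ l ∈ LL c, S.M.sys.Cmp a l ∧ (S.M.sys.w a).band ⊆ (S.M.sys.w l).sd true := fun l hl =>
  have e : a ≠ l := fun e => h (e ▸ hl)
  have k := H.cmp_ls ha (H.ls hl) e
  ⟨k, H.gx.sc.lsi l (H.ls hl) a e k⟩

theorem dh0 (hl : l ∈ cylW c) {γ} (h : Bs (J.xs l).D γ) : dh (J.xs l).D γ = 0 := by
  simpa using ((H.an.wl l _ 0 h.ok (H.an.pj.nil l hl).1 (H.lix.1 l (H.cyl hl))).2.1 γ h).1

theorem rt (hρ : S.M.sys.Piece c.1 ρ) (h : ∀ l ∈ LL c, ρ l ≠ some false) : RT J c (cel τ o) ρ :=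
  fun s hs k => ((H.gx.rich _ H.an.mem s hs c k H.a0).2 ρ hρ).1 fun l hl i =>
    h l (mem_LL.2 ⟨hρ.bd_subset (Sys.mem_bd_of i), H.gx.sc.lsp l hl⟩) i

theorem ntf (ha : Adm q) (hy : Sol (cel τ o) q y) (hl : l ∈ LL c) : ¬y.TF (hp l false) :=
  (H.lix.2 _ H.an.mem q y ⟨l, H.ls hl⟩ ha hy (mem_LL.1 hl).1).1

theorem rch : Rch J c (cel τ o) Adm :=
  ⟨fun s hs k => (H.gx.rich _ H.an.mem s hs c k H.a0).1, fun s hs k π hπ l i => by
    rw [H.gx.nb] at i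
    exact ((H.gx.rich _ H.an.mem s hs c k H.a0).2 π hπ).2 l i, fun ρ hρ => (H.lf.cases hρ).imp
      (fun ⟨_, h, k⟩ => H.rt hρ fun _ hl => k ▸ H.lf.ou_ne h hl)
      fun ⟨_, hl, k⟩ _ _ ha hy => k ▸ H.ntf ha hy hl⟩

theorem exists_fi (ha : Adm q) (hy : Sol (cel τ o) q y) :
    ∃ (z : S.A → J.Obc c) (e : S.A → ℕ), ∀ l ∈ LL c, Fi δ y (z l) (e l) l := by
  have := Nonempty.intro y
  suffices h : ∀ l ∈ LL c, ∃ z e, Fi δ y z e l by choose! z e h using h; exact ⟨z, e, h⟩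
  intro l hl
  obtain ⟨-, z, e, h1, h2, h3, h4, h5⟩ := H.lix.2 _ H.an.mem q y ⟨l, H.ls hl⟩ ha hy (mem_LL.1 hl).1
  have k : ((e + if (⟨l, H.ls hl⟩ : S.ls) ∈ y.H then 0 else 1 : ℤ) : ℝ) = e + ch y l := by
    simp [ch, H.ls hl, apply_ite]
  refine ⟨z, e, h1, h2, by rw [← k]; exact_mod_cast h3, ?_, fun i => ?_⟩
  · rw [gg, ← k, sub_nonneg]; exact_mod_cast h4
  · rw [gg, ← k, sub_eq_zero] at i
    obtain ⟨i1, i2⟩ := h5 (by exact_mod_cast i)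
    exact ⟨by rw [← k, i1, Int.cast_zero], i2⟩

section sol
variable (hy : Sol (cel τ o) q y)
include hy

theorem pt : S.Pt τ T (J.Θ y.s).2 := H.gx.par τ o H.an.mem _ hy.cell

theorem c_sub (ha : a ∈ c.1) : a ∈ τ := by_contra fun k =>
  one_ne_zero ((hy.inf.ge ha).symm.trans ((H.pt hy).2.2 a k (H.nfz ha)))

theorem L_sub : LL c ⊆ τ := fun _ k => H.c_sub hy (mem_LL.1 k).1

theorem out_τ (ha : a ∈ τ) (h : a ∉ LL c) :
    ∀ l ∈ LL c, S.M.sys.Cmp a l ∧ (S.M.sys.w a).band ⊆ (S.M.sys.w l).sd true := fun l hl =>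
  have e : a ≠ l := fun e => h (e ▸ hl)
  have k := (H.gx.sc.cell i σ H.mem).1 (.inl (H.sub ha)) (.inl (H.sub (H.L_sub hy hl))) e
  ⟨k, H.gx.sc.lsi l (H.ls hl) a e k⟩

theorem go (hP : P ⊆ Pc c) : Go δ y P :=
  go_mono (H.an.dec _ _ q y H.an.mem (H.an.loc.pok _ H.an.mem c _ _ y.H (fun _ => id) subset_rfl)
    (solOn hy subset_rfl fun _ k i => (i k).elim)).1 hP

theorem bs (hl : l ∈ cylW c) (b : Bool) : Bs (J.xs l).D (y.β l b) :=
  let ⟨ρ, k⟩ := (Sys.existsUnique_adj c.2 hl.1 b).exists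
  (H.go hy subset_rfl).bs (⟨l, hl⟩, b) ⟨ρ, k⟩

theorem cz (i : Ed c) : i ∈ cz y := .inl (H.dh0 i.1.2 (H.bs hy i.1.2 i.2))

theorem dmy_eq (p : Prt S.A (S.A ⊕ Unit) S.ls) : (dmy δ y p : ℝ) =
    ix δ y p.P p.P' + 2 * j + 1 + p.V.ncard - 2 * p.H.ncard := by
  rw [dmy, card_UU (H.cz hy), dm, min_eq_right (Nat.one_le_iff_ne_zero.2 H.an.r0)]
  have : (r : ℝ) = j + 1 + n := by exact_mod_cast H.gx.r
  push_cast
  linarith

theorem dmy_noz (p : Prt S.A (S.A ⊕ Unit) S.ls) : (dmy δ y.noz p : ℝ) =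
    ix δ y.noz p.P p.P' + p.V.ncard - 2 * p.H.ncard := by
  rw [dmy, card_UU (Z := Rf65.cz y.noz) (H.cz hy), dm]
  simp

/-- **additivity over a region** -/
theorem add_reg (h : S.M.sys.Piece ↑(c0 c) π) (hN : S.Nb i (S.M.sys.U π) β sg l2)
    (hz : ∀ l ∈ fl c π, (z l).s = y.s ∧ Go δ (z l) {hp l false} ∧
      (J.xs l).D.Eqv (y.β l true) ((z l).β l false)) :
    (ia δ y (oc c π) + ∑ l ∈ fl c π, (ia δ (z l) (hp l false) : ℝ) =
      8 * kk y z π - 3 * β + ∑ l ∈ fl c π, (dw y l : ℝ)) ∧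
    (idr δ y (oc c π) + ∑ l ∈ fl c π, (idr δ (z l) (hp l false) : ℝ) = -2 * kk y z π + (l2 - sg) / 2) ∧
    ∃ m : ℤ, kk y z π = (l2 - sg) / 4 + m := by
  obtain ⟨g, g1, g2⟩ := H.lf.exists_ob h y z
  have k := H.add _ H.an.mem y.s hy.ov ⟨_, H.lf.cell₀⟩ π (Set.ext fun _ => mem_c0) h β sg l2 hN g
    (fun a => y.β a true) (g1 (fun ρ x => x.s = y.s ∧ Go δ x {ρ} ∧ ∀ a ∈ cylW c, ∀ b, ρ a = some b →
      Bs (J.xs a).D (y.β a true) ∧ (J.xs a).D.Eqv (y.β a true) (x.β a b))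
      ⟨rfl, H.go hy (singleton_subset_iff.2 (H.lf.piece_ou h)), fun a ha b k => by
        rw [((H.lf.ou_end h (mem_LL.2 ha)).1 k).2]
        exact ⟨H.bs hy ha _, eqv_refl (H.bs hy ha _)⟩⟩
      fun l hl => ⟨(hz l hl).1, (hz l hl).2.1, fun a ha b k => by
        obtain ⟨rfl, rfl⟩ := hp_eq.1 k
        exact ⟨H.bs hy ha _, (hz a hl).2.2⟩⟩)
  simp only [Scene.In] at k
  rw [g2 fun x ρ => x.kap (D.W.pc c ρ), g2 fun x ρ => ia δ x ρ, g2 fun x ρ => idr δ x ρ,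
    show cylW c ∩ S.M.sys.inn π = ↑(fl c π) from Set.ext fun _ => by simp [mem_fi, mem_LL],
    finsum_mem_coe_finset, show ∑ l ∈ fl c π, ((dw y l : ℝ) - dh (J.xs l).D (y.β l true)) =
      ∑ l ∈ fl c π, (dw y l : ℝ) from Finset.sum_congr rfl fun l hl => by
      have hl := mem_LL.1 (mem_fi.1 hl).1
      rw [H.dh0 hl (H.bs hy hl _), Nat.cast_zero, sub_zero]] at k
  exact k

/-! ### parts -/

theorem card_lv (B : Finset S.A) (hB : ∀ a, a ∈ B ↔ a ∈ τ ∧ a ∉ c.1 ∧ ∃ ρ ∈ P, a ∈ S.M.sys.inn ρ) :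
    (J.lv (shX S X) (cel τ o) c P).ncard = B.card + sf o := by
  rw [show J.lv (shX S X) (cel τ o) c P = ↑(B.disjSum (if o = none then {()} else ∅)) from ?_,
    ncard_coe_finset, Finset.card_disjSum]
  · cases o <;> rfl
  ext (a | u)
  · simp only [Job.lv, H.gx.hd, mem_ofPred_eq, cel_inl, Sum.elim_inl, Finset.mem_coe,
      Finset.inl_mem_disjSum, hB, shX]
    by_cases k : a ∈ τ
    · have k' : a ∈ hard S X := H.hd k
      simp [k, k']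
    · simp [k]
  · simp only [Job.lv, H.gx.hd, mem_ofPred_eq, cel_inr, Sum.elim_inr, Finset.mem_coe,
      Finset.inr_mem_disjSum, shX]
    cases o
    exacts [by simpa using H.a0, by simp]

variable (hF : ∀ π ∈ F, S.M.sys.Piece ↑(c0 c) π)
include hF

theorem lv_ou : ((J.lv (shX S X) (cel τ o) c (oc c '' ↑F)).ncard : ℝ) =
    ∑ π ∈ F, ((fi S.M.sys (τ \ LL c) π).card : ℝ) + sf o := by
  rw [card_iN H.lf.cell₀ hF, H.card_lv hy (iN S.M.sys F (τ \ LL c)) fun a => ?_, Nat.cast_add]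
  rw [mem_iN, Finset.mem_sdiff]
  refine ⟨fun ⟨k, π, h, i⟩ => have i' := inn_ou (H.out_τ hy k.1 k.2) i
    ⟨k.1, fun ha => (H.lf.piece_ou (hF π h)).not_inn a ha i', _, ⟨π, h, rfl⟩, i'⟩, ?_⟩
  rintro ⟨k, -, _, ⟨π, h, rfl⟩, i⟩
  exact ⟨⟨k, (of_inn_ou i).2⟩, π, h, (of_inn_ou i).1⟩

omit hy in
theorem stb_ou : (stb y (oc c '' ↑F) : ℝ) = ∑ π ∈ F, ∑ l ∈ fl c π, (dw y l : ℝ) := by
  rw [sum_iN H.lf.cell₀ hF, stb_eq (iN S.M.sys F (LL c) ×ˢ {true}) fun a b => ?_]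
  · simp
  rw [Finset.mem_product, mem_iN, mem_LL, Finset.mem_singleton, and_assoc]
  refine and_congr_right fun ha => ⟨fun ⟨⟨π, h, i⟩, k⟩ =>
    ⟨_, ⟨π, h, rfl⟩, (H.lf.ou_end (hF π h) (mem_LL.2 ha)).2 ⟨i, k⟩⟩, ?_⟩
  rintro ⟨_, ⟨π, h, rfl⟩, k⟩
  replace k := (H.lf.ou_end (hF π h) (mem_LL.2 ha)).1 k
  exact ⟨⟨π, h, k.1⟩, k.2⟩

omit hy in
theorem cs_ou : ∑ π ∈ F, ∑ l ∈ fi S.M.sys (S.ls \ LL c) π, (1 - ch y l) ≤
    (J.cs (oc c '' ↑F) y.H).ncard := by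
  rw [sum_iN H.lf.cell₀ hF]
  refine sum_le_ncard fun l hl => ?_
  obtain ⟨k, π, h, i⟩ := mem_iN.1 hl
  rw [Finset.mem_sdiff] at k
  unfold ch
  split_ifs with m
  · obtain ⟨l, m, rfl⟩ := m
    refine .inr ⟨by simp, l, ⟨m, ?_⟩, rfl⟩
    rw [H.gx.nb]
    exact (subset_union_left.trans (H.gx.sc.hf_U l (inn_ou (H.out_ls k.1 k.2) i))).trans
      (subset_biUnion_of_mem (u := S.M.sys.U) ⟨π, h, rfl⟩)
  · exact .inl (sub_self _).le

end sol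

/-! ### the ledger of a region -/

variable (hz : ∀ l ∈ LL c, Fi δ y (z l) (e l) l)
include hz

omit H in
theorem Tt_eq : Tt y π = kk y z π + ∑ l ∈ fl c π, (e l : ℝ) + ∑ l ∈ fi S.M.sys S.ls π, ch y l := by
  rw [Tt, kk, Finset.sum_congr rfl fun l hl => (hz l (mem_fi.1 hl).1).kap, Finset.sum_add_distrib]
  ring

omit H in
theorem kap_le : y.kap (D.W.pc c (oc c π)) ≤ kk y z π :=
  le_add_of_nonneg_right (Finset.sum_nonneg fun l hl => (hz l (mem_fi.1 hl).1).fil.pos)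

omit H in
theorem Tt_int : ∃ m : ℕ, Tt y π = kk y z π + m :=
  let ⟨m, k⟩ := ch_int y (fi S.M.sys S.ls π)
  ⟨∑ l ∈ fl c π, e l + m, by rw [Tt_eq hz, k]; push_cast; ring⟩

/-- the loss of a region with spinor -/
def cost (δ : ℝ) (y : J.Obc c) (z : S.A → J.Obc c) (e : S.A → ℕ) (π : Reg S.A) : ℝ :=
  (fl c π).card + ∑ l ∈ fl c π, gg δ y (z l) (e l) l + 4 * ∑ l ∈ fi S.M.sys (S.ls \ LL c) π, ch y l

omit H in
theorem cost_nonneg : 0 ≤ cost δ y z e π :=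
  add_nonneg (add_nonneg (Nat.cast_nonneg _) (Finset.sum_nonneg fun l hl => (hz l (mem_fi.1 hl).1).g))
    (mul_nonneg (by norm_num) (Finset.sum_nonneg fun _ _ => ch_nonneg _ _))

variable (hy : Sol (cel τ o) q y) (h : S.M.sys.Piece ↑(c0 c) π) (hN : S.Nb i (S.M.sys.U π) β sg l2)
include hy h hN

theorem add_fi : (ia δ y (oc c π) + ∑ l ∈ fl c π, (ia δ (z l) (hp l false) : ℝ) =
      8 * kk y z π - 3 * β + ∑ l ∈ fl c π, (dw y l : ℝ)) ∧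
    (idr δ y (oc c π) + ∑ l ∈ fl c π, (idr δ (z l) (hp l false) : ℝ) = -2 * kk y z π + (l2 - sg) / 2) ∧
    ∃ m : ℤ, kk y z π = (l2 - sg) / 4 + m :=
  H.add_reg hy h hN fun l hl => let k := (hz l (mem_fi.1 hl).1).fil; ⟨k.s, k.go, k.eqv⟩

theorem led : (ia δ y (oc c π) + idr δ y (oc c π) - ∑ l ∈ fl c π, (dw y l : ℝ) +
      (fi S.M.sys (τ \ LL c) π).card - 2 * ∑ l ∈ fi S.M.sys (S.ls \ LL c) π, (1 - ch y l) ≤
      Wt β sg l2 (S.nm σ π) (S.nh π) (Tt y π) - 4 - cost δ y z e π) ∧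
    ia δ y (oc c π) - ∑ l ∈ fl c π, (dw y l : ℝ) +
      (fi S.M.sys (τ \ LL c) π).card - 2 * ∑ l ∈ fi S.M.sys (S.ls \ LL c) π, (1 - ch y l) ≤
      Dl β (S.nm σ π) (S.nh π) (Tt y π) := by
  obtain ⟨h1, h2, -⟩ := H.add_fi hz hy h hN
  have h3 := card_fi (S := S.M.sys) (π := π) (H.L_sub hy)
  have h4 : ((fi S.M.sys τ π).card : ℝ) ≤ (fi S.M.sys σ π).card :=
    Nat.cast_le.2 (Finset.card_le_card (Finset.filter_subset_filter _ H.sub))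
  have h5 := card_fi (S := S.M.sys) (π := π) (show LL c ⊆ S.ls from fun _ => H.ls)
  have h6 := sum_fi (S := S.M.sys) (π := π) (show LL c ⊆ S.ls from fun _ => H.ls) (ch y)
  have h7 := Finset.sum_le_sum fun l (hl : l ∈ fl c π) => (hz l (mem_fi.1 hl).1).a
  have h8 := Finset.sum_nonneg fun l (_ : l ∈ fi S.M.sys (S.ls \ LL c) π) => ch_nonneg y l
  simp only [Wt, Dl, cost, gg, Scene.nm, Scene.nh, ncard_fi, Tt_eq hz, Finset.sum_add_distrib,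
    Finset.sum_sub_distrib, ← Finset.mul_sum, Finset.sum_const, nsmul_eq_mul, mul_one] at h7 ⊢
  constructor <;> linarith

end Cx

end Crest.Agent.X212.Kl48
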